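import Vale.Agent.P181.FD.H422.Fat
import Vale.Agent.P181.FD.H340.DualT
import Vale.Agent.P181.TS.H798.Fin
import Vale.Agent.P181.H59.Dual
import Vale.Agent.P181.H463.Big

/-!
# P181, FD: assembly
-/

set_option autoImplicit false

namespace Vale.Agent.P181.FD

open Vale.Agent.P181 Vale.Agent.P181.H280

theorem matDualT : MatDualT := fun a b N len lam η hb hT hlen hη hcard hsum =>
  H340.matDualTStep TS.H187.ord1 TS.H187.ord2 TS.H187.ord3 a a b N len lam η hb hT
    (fun c => (hlen c).1) hη hcard hsum

/-- **Fat shapes, polylogarithmic loss, all `b ≥ a`, any number of rows.** -/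
theorem fatLog : FatLog :=
  H422.fat H59.Des6All.des_all H261.mat_stmt H59.mat_dual H463.big_stmt TS.desShort TS.matT
    matDualT

end Vale.Agent.P181.FD
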