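import Vale.Agent.P181.FD.H422.Core
import Vale.Agent.P181.TS.Spec
import Vale.Agent.P181.H59.All10g

/-!
# P181, FD: fat shapes next to the diagonal, numbers and all numbers of rows
-/

set_option autoImplicit false

open Finset

namespace Vale.Agent.P181.FD

open Vale.Agent.P181 Vale.Agent.P181.H280 Vale.Agent.P181.H463 Vale.Agent.P181.H59
open Vale.Agent.P181.TS

/-- **[FD2]** the orbit inequality for long columns, design with codes for the complements -/
def MatDualT : Prop :=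
  ∀ (a b N : ℕ) (len : Fin N → ℕ) (lam η : Fin a → ℕ), 0 < b →
    TDes b N (fun c => b - len c) → (∀ c, len c ≤ a ∧ len c ≤ b) → Antitone η →
    (∀ i : Fin a, (univ.filter fun c => (i : ℕ) < len c).card + η i = lam i) →
    ∑ i, lam i = a * b →
    gt a b η ≤ ((∑ i, η i) + b - 1).choose (b - 1) * (b.factorial * plethMult b a a lam)

/-- **The theorem of the line FD**: enough boxes in the first `b` columns, polylogarithmic loss. -/
def FatLog : Prop := ∃ (C : ℝ) (c : ℕ), 0 < C ∧ ∀ (a b n : ℕ) (lam : Fin n → ℕ), a ≤ b →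
  C * (1 + Real.log a) ^ c * (b : ℝ) ^ 2 ≤ ((b : ℝ) - a) * ∑ i, ((min b (lam i) : ℕ) : ℝ) →
  plethMult a b n lam ≤ plethMult b a n lam

namespace H422

/-- one pair `(a, b)`, `a` rows, one row `i` with `(i + 1) min (b, λ_i)` large -/
def Row (C : ℕ) (b0 : ℕ) : Prop := ∀ a b : ℕ, a ≤ b → b0 ≤ b →
  ∀ lam : Fin a → ℕ, Antitone lam → ∑ i, lam i = a * b → ∀ i : Fin a,
    (b : ℝ) ^ 2 * (1400 * Real.log b ^ (C + 1)) ≤
      ((i : ℕ) + 1) * ((b : ℝ) - a) * min (b : ℝ) (lam i) →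
    plethMult a b a lam ≤ plethMult b a a lam

lemma log2_le {b : ℕ} (hb : 0 < b) (hlog1 : 1 ≤ Real.log b) :
    256 * ((Nat.log 2 b : ℝ) + 4) ≤ 1400 * Real.log b := by
  have h1 : 2 ^ Nat.log 2 b ≤ b := Nat.pow_log_le_self 2 (by omega)
  have h2 : ((2 : ℝ)) ^ Nat.log 2 b ≤ b := by exact_mod_cast h1
  have h3 := Real.log_le_log (by positivity) h2
  rw [Real.log_pow] at h3
  have h4 : (0.6931471803 : ℝ) < Real.log 2 := Real.log_two_gt_d9
  have h5 : ((Nat.log 2 b : ℕ) : ℝ) * 0.6931471803 ≤ (Nat.log 2 b : ℕ) * Real.log 2 :=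
    mul_le_mul_of_nonneg_left h4.le (Nat.cast_nonneg _)
  linarith

theorem row (hD : S6.DesAll) (hM : MatStmt) (hM' : S10.MatDual) (hS : DesShort) (hT : MatT)
    (hT' : MatDualT) : ∃ C b0 : ℕ, Row C b0 := by
  obtain ⟨C0, b0, hb0⟩ := hD (1 / 3) 1 (by norm_num) one_pos
  obtain ⟨b1, hb1⟩ := hS
  refine ⟨max C0 4, max (max b0 b1) 3, ?_⟩
  intro a b hab hbb lam hlam hsum i hmain
  have hbb0 : b0 ≤ b := (le_max_left _ _).trans ((le_max_left _ _).trans hbb)
  have hbb1 : b1 ≤ b := (le_max_right _ _).trans ((le_max_left _ _).trans hbb)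
  have hb3 : 3 ≤ b := (le_max_right _ _).trans hbb
  have hb : 0 < b := by omega
  have hbR : (0 : ℝ) < b := by exact_mod_cast hb
  have hlog1 : 1 ≤ Real.log b := by
    rw [Real.le_log_iff_exp_le hbR]
    have h1 : Real.exp 1 < 3 := by
      have := Real.exp_one_lt_d9
      linarith
    have h2 : (3 : ℝ) ≤ b := by exact_mod_cast hb3
    linarith
  have hpow : ∀ x y : ℕ, x ≤ y → Real.log b ^ x ≤ Real.log b ^ y := fun x y h =>
    pow_le_pow_right₀ hlog1 h
  have hz1 : Real.log b ≤ Real.log b ^ (max C0 4 + 1) := by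
    calc Real.log b = Real.log b ^ 1 := (pow_one _).symm
      _ ≤ _ := hpow _ _ (by omega)
  have hz : 64 * Real.log b ^ (max C0 4 + 1) ≤ 1400 * Real.log b ^ (max C0 4 + 1) := by
    have : 0 ≤ Real.log b ^ (max C0 4 + 1) := by positivity
    linarith
  have hhalf : (1 + (1 : ℝ)) * ((b / 2 : ℕ) : ℝ) ≤ b := by
    have : ((b / 2 : ℕ) : ℝ) ≤ (b : ℝ) / 2 := Nat.cast_div_le
    linarith
  have h256 : ∀ m : ℕ, 1400 * Real.log b ^ (max C0 4 + 1) ≤ (m : ℝ) →
      256 * (Nat.log 2 b + 4) ≤ m := by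
    intro m hm
    have h1 := log2_le hb hlog1
    have h2 : (256 * ((Nat.log 2 b : ℝ) + 4)) ≤ m := by linarith
    exact_mod_cast h2
  have hcube : ∀ m : ℕ, ¬ m ^ 3 ≤ b → (b : ℝ) ^ (1 / 3 : ℝ) ≤ m := by
    intro m hm
    have h1 : (b : ℝ) ≤ (m : ℝ) ^ 3 := by exact_mod_cast (not_le.1 hm).le
    calc (b : ℝ) ^ (1 / 3 : ℝ) ≤ ((m : ℝ) ^ 3) ^ (1 / 3 : ℝ) :=
          Real.rpow_le_rpow hbR.le h1 (by norm_num)
      _ = m := by
          rw [← Real.rpow_natCast, ← Real.rpow_mul (Nat.cast_nonneg _)]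
          norm_num
  have hN4 : ∀ m N : ℕ, ((b : ℝ) / m) * Real.log b ^ (max C0 4) ≤ N →
      ((b : ℝ) / m) * Real.log b ^ 4 ≤ N := fun m N h =>
    (mul_le_mul_of_nonneg_left (hpow _ _ (le_max_right _ _)) (by positivity)).trans h
  have hN0 : ∀ m N : ℕ, ((b : ℝ) / m) * Real.log b ^ (max C0 4) ≤ N →
      ((b : ℝ) / m) * Real.log b ^ C0 ≤ N := fun m N h =>
    (mul_le_mul_of_nonneg_left (hpow _ _ (le_max_left _ _)) (by positivity)).trans h
  refine core10 (C := max C0 4) hab hlog1 hz ?_ ?_ hlam hsum i hmain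
  · intro m N h1 h2 h3 len hlen mu η hη hcard hmu
    by_cases hm : m ^ 3 ≤ b
    · exact hT a a b N len mu η hb
        (hb1 b m N hbb1 (h256 m h1) hm (hN4 m N h3) len
          fun c => ⟨(hlen c).2.1, (hlen c).2.2.1⟩)
        (fun c => (hlen c).1) hη hcard hmu
    · obtain ⟨R, hRm, hd⟩ := hb0 b (b / 2) m N hbb0 hhalf (hcube m hm) h2 (hN0 m N h3) len
        fun c => (hlen c).2
      exact hM a b R N len mu η hb hd (fun c => ⟨hRm.trans (hlen c).2.1, (hlen c).1⟩) hη hcard hmu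
  · intro m N h1 h2 h3 len hlen mu η hη hcard hmu
    have hm0 : 0 < m := by
      rcases Nat.eq_zero_or_pos m with h | h
      · subst h
        have : (0 : ℝ) < 1400 * Real.log b ^ (max C0 4 + 1) := by positivity
        rw [Nat.cast_zero] at h1
        linarith
      · exact h
    by_cases hm : m ^ 3 ≤ b
    · exact hT' a b N len mu η hb
        (hb1 b m N hbb1 (h256 m h1) hm (hN4 m N h3) (fun c => b - len c)
          fun c => ⟨(hlen c).2.1, (hlen c).2.2.1⟩)
        (fun c => ⟨(hlen c).1, (hlen c).1.trans hab⟩) hη hcard hmu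
    · obtain ⟨R, hRm, hd⟩ := hb0 b (b / 2) m N hbb0 hhalf (hcube m hm) h2 (hN0 m N h3)
        (fun c => b - len c) fun c => (hlen c).2
      refine hM' a b R N len mu η hb hd (fun c => ⟨(hlen c).1, ?_⟩) hη hcard hmu
      have h4 := (hlen c).2.1
      have h5 := (hlen c).1
      omega

theorem fat_of_row {C b0 : ℕ} (hR : Row C b0) (hB : T4.BigStmt) : FatLog := by
  refine ⟨1400 * 2 ^ (C + 1) + b0 + 1, C + 2, by positivity, ?_⟩
  intro a b n lam hab hl
  rcases Nat.eq_zero_or_pos a with h0 | ha1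
  · subst h0
    exact hB 0 b n lam (by simp)
  rcases Nat.le_total ((a - 1) ^ 2) b with hbig | hsmall
  · exact hB a b n lam hbig
  have hba : b ≤ a ^ 2 := hsmall.trans (Nat.pow_le_pow_left (Nat.sub_le a 1) 2)
  have ha1R : (1 : ℝ) ≤ a := by exact_mod_cast (show 1 ≤ a from ha1)
  have ha0 : (0 : ℝ) < a := by linarith
  have habR : (a : ℝ) ≤ b := by exact_mod_cast hab
  have hb0R : (0 : ℝ) < b := by linarith
  have hla : 0 ≤ Real.log a := Real.log_nonneg ha1R
  have hX1 : 1 ≤ 1 + Real.log a := by linarith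
  set K : ℝ := 1400 * 2 ^ (C + 1) + b0 + 1 with hK
  have hK0 : 0 < K := by positivity
  have hb0K : (b0 : ℝ) + 1 ≤ K := by
    have : (0 : ℝ) ≤ 1400 * 2 ^ (C + 1) := by positivity
    rw [hK]; linarith
  have hpos : (0 : ℝ) < K * (1 + Real.log a) ^ (C + 2) * (b : ℝ) ^ 2 := by positivity
  have hba0 : (0 : ℝ) < (b : ℝ) - a := by
    rcases (sub_nonneg.2 habR).lt_or_eq with h1 | h1
    · exact h1
    · exfalso
      rw [← h1, zero_mul] at hl
      linarith
  refine all_n_sum (fun x => min b x) (by simp)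
    (Y := K * (1 + Real.log a) ^ (C + 2) * (b : ℝ) ^ 2 / (b - a))
    (fun mu hmu hsum hY => ?_) n lam ?_
  · have hS : 0 < ∑ i : Fin a, ((min b (mu i) : ℕ) : ℝ) :=
      lt_of_lt_of_le (by positivity) hY
    have hYm : K * (1 + Real.log a) ^ (C + 2) * (b : ℝ) ^ 2 ≤
        (b - a) * ∑ i : Fin a, ((min b (mu i) : ℕ) : ℝ) := by
      rw [div_le_iff₀ hba0] at hY
      linarith
    -- a is large
    have hale : K ≤ a := by
      have h1 : ∑ i : Fin a, ((min b (mu i) : ℕ) : ℝ) ≤ a * b := by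
        calc ∑ i : Fin a, ((min b (mu i) : ℕ) : ℝ) ≤ ∑ _i : Fin a, (b : ℝ) :=
              Finset.sum_le_sum fun i _ => by exact_mod_cast min_le_left _ _
          _ = a * b := by rw [Finset.sum_const, Finset.card_univ, Fintype.card_fin, nsmul_eq_mul]
      have h2 : 1 ≤ (1 + Real.log a) ^ (C + 2) := one_le_pow₀ hX1
      have h3 : K * (b : ℝ) ^ 2 ≤ a * (b : ℝ) ^ 2 := by
        calc K * (b : ℝ) ^ 2 = K * 1 * (b : ℝ) ^ 2 := by ring
          _ ≤ K * (1 + Real.log a) ^ (C + 2) * (b : ℝ) ^ 2 := by gcongr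
          _ ≤ (b - a) * ∑ i : Fin a, ((min b (mu i) : ℕ) : ℝ) := hYm
          _ ≤ (b - a) * (a * b) := mul_le_mul_of_nonneg_left h1 hba0.le
          _ ≤ b * (a * b) := by gcongr; linarith
          _ = a * (b : ℝ) ^ 2 := by ring
      exact le_of_mul_le_mul_right h3 (by positivity)
    have hb0a : b0 ≤ b := by
      have h1 : (b0 : ℝ) ≤ a := by linarith
      have h2 : b0 ≤ a := by exact_mod_cast h1
      omega
    obtain ⟨i, hi⟩ := exists_row (fun i : Fin a => ((min b (mu i) : ℕ) : ℝ)) hS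
    refine hR a b hab hb0a mu hmu hsum i ?_
    have hlogb : Real.log b ≤ 2 * (1 + Real.log a) := by
      have h1 : Real.log b ≤ Real.log ((a : ℝ) ^ 2) :=
        Real.log_le_log hb0R (by exact_mod_cast hba)
      rw [Real.log_pow] at h1
      push_cast at h1
      linarith
    have hlogb0 : 0 ≤ Real.log b := Real.log_nonneg (by linarith)
    have h5 : (b : ℝ) ^ 2 * (1400 * Real.log b ^ (C + 1)) * (1 + Real.log a) ≤
        (((i : ℕ) + 1) * ((b : ℝ) - a) * min (b : ℝ) (mu i)) * (1 + Real.log a) := by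
      calc (b : ℝ) ^ 2 * (1400 * Real.log b ^ (C + 1)) * (1 + Real.log a)
          ≤ (b : ℝ) ^ 2 * (1400 * (2 * (1 + Real.log a)) ^ (C + 1)) * (1 + Real.log a) := by
            gcongr
        _ = (1400 * 2 ^ (C + 1)) * (1 + Real.log a) ^ (C + 2) * (b : ℝ) ^ 2 := by
            rw [mul_pow]
            ring
        _ ≤ K * (1 + Real.log a) ^ (C + 2) * (b : ℝ) ^ 2 := by
            have : (1400 * 2 ^ (C + 1) : ℝ) ≤ K := by
              rw [hK]
              have : (0 : ℝ) ≤ (b0 : ℝ) := Nat.cast_nonneg _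
              linarith
            gcongr
        _ ≤ (b - a) * ∑ i : Fin a, ((min b (mu i) : ℕ) : ℝ) := hYm
        _ ≤ (b - a) * ((1 + Real.log a) * (((i : ℕ) + 1) * ((min b (mu i) : ℕ) : ℝ))) :=
            mul_le_mul_of_nonneg_left hi hba0.le
        _ = (((i : ℕ) + 1) * ((b : ℝ) - a) * min (b : ℝ) (mu i)) * (1 + Real.log a) := by
            rw [Nat.cast_min]
            ring
    exact le_of_mul_le_mul_right h5 (by positivity)
  · rw [div_le_iff₀ hba0]
    calc K * (1 + Real.log a) ^ (C + 2) * (b : ℝ) ^ 2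
        ≤ ((b : ℝ) - a) * ∑ i, ((min b (lam i) : ℕ) : ℝ) := hl
      _ = _ := by ring

theorem fat (hD : S6.DesAll) (hM : MatStmt) (hM' : S10.MatDual) (hB : T4.BigStmt)
    (hS : DesShort) (hT : MatT) (hT' : MatDualT) : FatLog := by
  obtain ⟨C, b0, h⟩ := row hD hM hM' hS hT hT'
  exact fat_of_row h hB

end H422

end Vale.Agent.P181.FD
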