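import Vale.Agent.P181.H188.Num10

/-!
# P181, FD: fat shapes next to the diagonal, core with abstract orbit inequalities
-/

set_option autoImplicit false

open Finset

namespace Vale.Agent.P181.FD.H422

open Vale.Agent.P181 Vale.Agent.P181.H280 Vale.Agent.P181.FR Vale.Agent.P181.H188W
open Vale.Agent.P181.T4 Vale.Agent.P181.H463 Vale.Agent.P181.H59 Vale.Agent.P181.H914
open Vale.Agent.P181.H188

/-- the orbit inequality for marker columns of the lengths `len` -/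
def Orb (a b N : ℕ) (len : Fin N → ℕ) : Prop :=
  ∀ lam η : Fin a → ℕ, Antitone η →
    (∀ i : Fin a, (univ.filter fun c => (i : ℕ) < len c).card + η i = lam i) →
    ∑ i, lam i = a * b →
    gt a b η ≤ ((∑ i, η i) + b - 1).choose (b - 1) * (b.factorial * plethMult b a a lam)

/-- **Case A: short columns.** -/
theorem caseA {a b l W C : ℕ} {g z : ℝ} {lam : Fin a → ℕ} (hlam : Antitone lam)
    (hsum : ∑ i, lam i = a * b) (ha : 0 < a) (hab : a + 1 ≤ b) (hg : g = Real.log b)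
    (hg1 : 1 ≤ g) (hz : 64 * g ^ (C + 1) ≤ z) (hl1 : 1 ≤ l) (hla : l ≤ a) (hWb : W ≤ b)
    (hrow : ∀ i : Fin a, (i : ℕ) < l → W ≤ lam i)
    (hmain : (b : ℝ) ^ 2 * z ≤ l * ((b : ℝ) - a) * W)
    (hdes : ∀ m N : ℕ, z ≤ m → m ≤ b / 2 → ((b : ℝ) / m) * g ^ C ≤ N →
      ∀ len : Fin N → ℕ, (∀ c, len c ≤ a ∧ m ≤ len c ∧ len c ≤ 2 * m ∧ len c ≤ b / 2) →
      Orb a b N len)
    (hA : 2 * ex lam (b / 2) < W) :
    plethMult a b a lam ≤ plethMult b a a lam := by
  obtain ⟨hzl, hze, hblW, hbeW⟩ := basics hab hla hWb hmain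
  obtain ⟨L, hL0, hbL, hL⟩ := dyadic (b := b) (by omega) (hg ▸ hg1)
  rw [← hg] at hL
  obtain ⟨nh, hnh⟩ : ∃ nh, nh = ex lam (b / 2) := ⟨_, rfl⟩
  rw [← hnh] at hA
  obtain ⟨K, hK⟩ : ∃ K : ℕ → ℕ, K = fun i => max (min W (ex lam (l * 2 ^ i - 1))) nh := ⟨_, rfl⟩
  have hKW : ∀ i, K i ≤ W := by
    intro i
    rw [hK]
    simp only
    omega
  have hK0 : K 0 = W := by
    have h1 : W ≤ ex lam (l * 2 ^ 0 - 1) := by
      rw [pow_zero, Nat.mul_one, T4.ex_of_lt lam (by omega : l - 1 < a)]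
      exact hrow _ (by show l - 1 < l; omega)
    rw [hK]
    simp only
    omega
  have hKL : K L = nh := by
    have h1 : ex lam (l * 2 ^ L - 1) ≤ nh := by
      by_contra hcon
      push Not at hcon
      rw [lt_ex_iff hlam] at hcon
      have h2 : 1 * 2 ^ L ≤ l * 2 ^ L := Nat.mul_le_mul_right _ hl1
      have h3 : b / 2 < cj lam nh := by omega
      rw [← lt_ex_iff hlam, ← hnh] at h3
      omega
    rw [hK]
    simp only
    omega
  obtain ⟨i, hiL, hi1, hi2⟩ := pigeon (fun i => W - K i) (L := L) (n := W - nh)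
    (by simp only [hK0]; omega) (by simp only [hKL]; omega) (by omega)
  obtain ⟨D, hD⟩ : ∃ D, D = W - K (i + 1) - (W - K i) := ⟨_, rfl⟩
  rw [← hD] at hi2
  have hKi := hKW i
  have hKi1 := hKW (i + 1)
  have hD0 : 0 < D := by
    rcases Nat.eq_zero_or_pos D with h | h
    · rw [h, Nat.mul_zero] at hi2
      omega
    · exact h
  obtain ⟨m, hm⟩ : ∃ m, m = l * 2 ^ i := ⟨_, rfl⟩
  have hlm : l ≤ m := by
    rw [hm]
    exact Nat.le_mul_of_pos_right _ (by positivity)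
  have hm2 : l * 2 ^ (i + 1) = 2 * m := by
    rw [hm, pow_succ]
    ring
  have hclass : ∀ j, K (i + 1) ≤ j → j < K i →
      m ≤ cj lam j ∧ cj lam j ≤ 2 * m ∧ cj lam j ≤ b / 2 := by
    intro j h1 h2
    rw [hK] at h1 h2
    simp only at h1 h2
    rw [hm2] at h1
    rw [← hm] at h2
    have h3 : j < ex lam (m - 1) := by omega
    have h4 : ex lam (2 * m - 1) ≤ j := by omega
    have h5 : nh ≤ j := by omega
    have h6 := (lt_ex_iff hlam j (m - 1)).1 h3
    have h7 := cj_le lam j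
    obtain ⟨h8, h9⟩ := class_len hlam (by omega) (by omega) h4 h3
    refine ⟨h8, h9, ?_⟩
    by_contra hcon
    push Not at hcon
    rw [← lt_ex_iff hlam, ← hnh] at hcon
    omega
  have hmh : m ≤ b / 2 := by
    have := hclass (K (i + 1)) le_rfl (by omega)
    omega
  obtain ⟨N, hNge, hmN⟩ := markers (b := b) (m := m) (C := C) (g := g) (by omega) (by omega) hg1
  have hbmW : (b : ℝ) * z ≤ m * W := by
    refine hblW.trans ?_
    have : (l : ℝ) ≤ m := by exact_mod_cast hlm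
    gcongr
  have hND : 2 * N ≤ D := fits hg1 hL hz (by omega) hbmW hmN (by omega : W ≤ 2 * (W - nh)) hi2
  have hcls : ∀ c : Fin N, m ≤ cj lam (K (i + 1) + c) ∧ cj lam (K (i + 1) + c) ≤ 2 * m ∧
      cj lam (K (i + 1) + c) ≤ b / 2 := by
    intro c
    have := c.2
    exact hclass _ (by omega) (by omega)
  have hzm : z ≤ m := by
    refine hzl.trans ?_
    exact_mod_cast hlm
  have hmat := hdes m N hzm hmh hNge (fun c => cj lam (K (i + 1) + c))
    (fun c => ⟨cj_le lam _, hcls c⟩) lam (et6 lam (K (i + 1)) N) (et6_anti hlam _ N) (by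
      intro i'
      simp only [lt_cj hlam]
      exact card_win6 (lam i') _ N) hsum
  refine finish10 hlam hsum ha hab hg hg1 hz hla hWb hrow hmain hmN (by omega) (fun c => ?_) hmat
  exact (Nat.choose_le_pow _ _).trans (Nat.pow_le_pow_right ha (hcls c).2.1)

/-- **Case B: long columns.** -/
theorem caseB {a b l W C : ℕ} {g z : ℝ} {lam : Fin a → ℕ}
    (hlam : Antitone lam)
    (hsum : ∑ i, lam i = a * b) (ha : 0 < a) (hab : a + 1 ≤ b) (hg : g = Real.log b)
    (hg1 : 1 ≤ g) (hz : 64 * g ^ (C + 1) ≤ z) (hla : l ≤ a) (hWb : W ≤ b)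
    (hrow : ∀ i : Fin a, (i : ℕ) < l → W ≤ lam i)
    (hmain : (b : ℝ) ^ 2 * z ≤ l * ((b : ℝ) - a) * W)
    (hdes : ∀ m N : ℕ, z ≤ m → m ≤ b / 2 → ((b : ℝ) / m) * g ^ C ≤ N →
      ∀ len : Fin N → ℕ,
        (∀ c, len c ≤ a ∧ m ≤ b - len c ∧ b - len c ≤ 2 * m ∧ b - len c ≤ b / 2) →
      Orb a b N len)
    (hW0 : 0 < W) (hB : W ≤ 2 * ex lam (b / 2)) :
    plethMult a b a lam ≤ plethMult b a a lam := by
  obtain ⟨hzl, hze, hblW, hbeW⟩ := basics hab hla hWb hmain
  obtain ⟨L, hL0, hbL, hL⟩ := dyadic (b := b) (by omega) (hg ▸ hg1)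
  rw [← hg] at hL
  obtain ⟨nh, hnh⟩ : ∃ nh, nh = ex lam (b / 2) := ⟨_, rfl⟩
  rw [← hnh] at hB
  obtain ⟨e, he⟩ : ∃ e, e = b - a := ⟨_, rfl⟩
  rw [← he] at hze hbeW
  have he1 : 1 ≤ e := by omega
  obtain ⟨K, hK⟩ : ∃ K : ℕ → ℕ,
    K = fun i => min (min W nh) (ex lam (max (b - e * 2 ^ i) (b / 2))) := ⟨_, rfl⟩
  have hKW : ∀ i, K i ≤ min W nh := by
    intro i
    rw [hK]
    simp only
    omega
  have hK0 : K 0 = 0 := by
    have h1 : ex lam (max (b - e * 2 ^ 0) (b / 2)) = 0 := by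
      refine ex_of_ge lam ?_
      rw [pow_zero, Nat.mul_one]
      omega
    rw [hK]
    simp only
    omega
  have hKL : min W nh ≤ K L := by
    have h2 : 1 * 2 ^ L ≤ e * 2 ^ L := Nat.mul_le_mul_right _ he1
    have h1 : max (b - e * 2 ^ L) (b / 2) = b / 2 := by omega
    rw [hK]
    simp only
    rw [h1, ← hnh]
    omega
  obtain ⟨i, hiL, hi1, hi2⟩ := pigeon K (L := L) (n := min W nh) hK0 hKL (by omega)
  obtain ⟨D, hD⟩ : ∃ D, D = K (i + 1) - K i := ⟨_, rfl⟩
  rw [← hD] at hi2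
  have hKi := hKW i
  have hKi1 := hKW (i + 1)
  have hD0 : 0 < D := by
    rcases Nat.eq_zero_or_pos D with h | h
    · rw [h, Nat.mul_zero] at hi2
      omega
    · exact h
  obtain ⟨m, hm⟩ : ∃ m, m = e * 2 ^ i := ⟨_, rfl⟩
  have hem : e ≤ m := by
    rw [hm]
    exact Nat.le_mul_of_pos_right _ (by positivity)
  have hm2 : e * 2 ^ (i + 1) = 2 * m := by
    rw [hm, pow_succ]
    ring
  have hclass : ∀ j, K i ≤ j → j < K (i + 1) →
      m ≤ b - cj lam j ∧ b - cj lam j ≤ 2 * m ∧ b - cj lam j ≤ b / 2 := by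
    intro j h1 h2
    rw [hK] at h1 h2
    simp only at h1 h2
    rw [hm2] at h2
    rw [← hm] at h1
    have h3 : j < ex lam (max (b - 2 * m) (b / 2)) := by omega
    have h4 : ¬ j < ex lam (max (b - m) (b / 2)) := by omega
    rw [lt_ex_iff hlam] at h3 h4
    have h7 := cj_le lam j
    omega
  have hmh : m ≤ b / 2 := by
    have := hclass (K i) le_rfl (by omega)
    omega
  obtain ⟨N, hNge, hmN⟩ := markers (b := b) (m := m) (C := C) (g := g) (by omega) (by omega) hg1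
  have hbmW : (b : ℝ) * z ≤ m * W := by
    refine hbeW.trans ?_
    have : (e : ℝ) ≤ m := by exact_mod_cast hem
    gcongr
  have hND : 2 * N ≤ D := fits hg1 hL hz (by omega) hbmW hmN (by omega : W ≤ 2 * (min W nh)) hi2
  have hcls : ∀ c : Fin N, m ≤ b - cj lam (K i + c) ∧ b - cj lam (K i + c) ≤ 2 * m ∧
      b - cj lam (K i + c) ≤ b / 2 := by
    intro c
    have := c.2
    exact hclass _ (by omega) (by omega)
  have hzm : z ≤ m := by
    refine hze.trans ?_
    exact_mod_cast hem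
  have hmat := hdes m N hzm hmh hNge (fun c => cj lam (K i + c))
    (fun c => ⟨cj_le lam _, hcls c⟩) lam (et6 lam (K i) N) (et6_anti hlam _ N) (by
      intro i'
      simp only [lt_cj hlam]
      exact card_win6 (lam i') _ N) hsum
  refine finish10 hlam hsum ha hab hg hg1 hz hla hWb hrow hmain hmN (by omega) (fun c => ?_) hmat
  have h2 := cj_le lam (K i + c)
  have h3 := (hcls c).2.1
  rw [← Nat.choose_symm h2]
  exact (Nat.choose_le_pow _ _).trans (Nat.pow_le_pow_right ha (by omega))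

/-- **S10 for one pair and one shape.** -/
theorem core10 {a b C : ℕ} {z : ℝ}
    (hab : a ≤ b) (hlog1 : 1 ≤ Real.log b) (hz : 64 * Real.log b ^ (C + 1) ≤ z)
    (hdesA : ∀ m N : ℕ, z ≤ m → m ≤ b / 2 → ((b : ℝ) / m) * Real.log b ^ C ≤ N →
      ∀ len : Fin N → ℕ, (∀ c, len c ≤ a ∧ m ≤ len c ∧ len c ≤ 2 * m ∧ len c ≤ b / 2) →
      Orb a b N len)
    (hdesB : ∀ m N : ℕ, z ≤ m → m ≤ b / 2 → ((b : ℝ) / m) * Real.log b ^ C ≤ N →
      ∀ len : Fin N → ℕ,
        (∀ c, len c ≤ a ∧ m ≤ b - len c ∧ b - len c ≤ 2 * m ∧ b - len c ≤ b / 2) →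
      Orb a b N len)
    {lam : Fin a → ℕ} (hlam : Antitone lam) (hsum : ∑ i, lam i = a * b) (i : Fin a)
    (hmain : (b : ℝ) ^ 2 * z ≤ ((i : ℕ) + 1) * ((b : ℝ) - a) * min (b : ℝ) (lam i)) :
    plethMult a b a lam ≤ plethMult b a a lam := by
  have ha : 0 < a := Nat.lt_of_le_of_lt (Nat.zero_le _) i.2
  have hb : 0 < b := by omega
  have hbR : (0 : ℝ) < b := by exact_mod_cast hb
  have hp : 1 ≤ Real.log b ^ (C + 1) := one_le_pow₀ hlog1
  have hz0 : 0 < z := by linarith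
  obtain ⟨W, hW⟩ : ∃ W : ℕ, W = min b (lam i) := ⟨_, rfl⟩
  have hWR : min (b : ℝ) (lam i) = W := by
    rw [hW, Nat.cast_min]
  rw [hWR] at hmain
  have hpos : 0 < (b : ℝ) ^ 2 * z := by positivity
  have hab' : a + 1 ≤ b := by
    rcases Nat.lt_or_ge a b with h | h
    · exact h
    · have h1 : (b : ℝ) - a = 0 := by
        have : (b : ℝ) = a := by exact_mod_cast le_antisymm h hab
        linarith
      rw [h1, mul_zero, zero_mul] at hmain
      linarith
  have hW0 : 0 < W := by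
    rcases Nat.eq_zero_or_pos W with h | h
    · rw [h, Nat.cast_zero, mul_zero] at hmain
      linarith
    · exact h
  have hrow : ∀ i' : Fin a, (i' : ℕ) < (i : ℕ) + 1 → W ≤ lam i' := by
    intro i' h
    have h1 : lam i ≤ lam i' := hlam (by
      rw [Fin.le_def]
      omega)
    omega
  have hmain' : (b : ℝ) ^ 2 * z ≤ (((i : ℕ) + 1 : ℕ) : ℝ) * ((b : ℝ) - a) * W := by
    push_cast
    exact hmain
  rcases Nat.lt_or_ge (2 * ex lam (b / 2)) W with h | h
  · exact caseA hlam hsum ha hab' rfl hlog1 hz (Nat.succ_pos _) i.2 (by omega) hrow hmain'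
      hdesA h
  · exact caseB hlam hsum ha hab' rfl hlog1 hz i.2 (by omega) hrow hmain' hdesB hW0 h

end Vale.Agent.P181.FD.H422
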