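import Vale.Agent.P181.FD.H422.Fat

/-!
# P181, FD: all but an exponentially small proportion of the shapes, `b ≥ a + polylog`
-/

set_option autoImplicit false

open Finset

namespace Vale.Agent.P181.FD

open Vale.Agent.P181 Vale.Agent.P181.H280

/-- for `b ≥ a + C (1 + log a) ^ c` Foulkes' inequality fails for at most a proportion
`exp (-a / 4)` of the partitions of `a b` with at most `a` parts -/
def MostAll : Prop := ∃ (C : ℝ) (c : ℕ), 0 < C ∧ ∀ a b : ℕ,
  (a : ℝ) + C * (1 + Real.log a) ^ c ≤ b →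
  ({lam : Fin a → ℕ | Antitone lam ∧ ∑ i, lam i = a * b ∧
      ¬ plethMult a b a lam ≤ plethMult b a a lam}.ncard : ℝ) ≤
    Real.exp (-(a : ℝ) / 4) *
      ({lam : Fin a → ℕ | Antitone lam ∧ ∑ i, lam i = a * b}.ncard : ℝ)

namespace H422

/-- number of entries larger than `x` -/
def nb {a : ℕ} (lam : Fin a → ℕ) (x : ℕ) : ℕ := (univ.filter fun i => x < lam i).card

lemma lt_iff {a : ℕ} {lam : Fin a → ℕ} (h : Antitone lam) (x : ℕ) (i : Fin a) :
    x < lam i ↔ (i : ℕ) < nb lam x := by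
  constructor
  · intro hx
    have h1 : Iic i ⊆ univ.filter fun i => x < lam i := by
      intro j hj
      rw [mem_Iic] at hj
      exact mem_filter.2 ⟨mem_univ _, hx.trans_le (h hj)⟩
    have h2 := card_le_card h1
    rw [Fin.card_Iic] at h2
    unfold nb
    omega
  · intro hi
    by_contra hx
    have h1 : (univ.filter fun i => x < lam i) ⊆ Iio i := by
      intro j hj
      rw [mem_filter] at hj
      rw [mem_Iio]
      by_contra hji
      exact hx (hj.2.trans_le (h (not_lt.1 hji)))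
    have h2 := card_le_card h1
    rw [Fin.card_Iio] at h2
    unfold nb at hi
    omega

/-- few large entries: few shapes -/
lemma count {a : ℕ} (N s t : ℕ) (A : Set (Fin a → ℕ))
    (hA : ∀ lam ∈ A, Antitone lam ∧ (∀ i, lam i ≤ N) ∧ nb lam s ≤ t) :
    A.ncard ≤ (a + 1) ^ s * (N + 1) ^ t := by
  classical
  let g : (Fin a → ℕ) → (Fin s → ℕ) × (Fin t → ℕ) := fun lam =>
    (fun x => nb lam x, fun j => if h : (j : ℕ) < a then lam ⟨j, h⟩ else 0)
  let B : Finset ((Fin s → ℕ) × (Fin t → ℕ)) :=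
    (Fintype.piFinset fun _ => range (a + 1)) ×ˢ (Fintype.piFinset fun _ => range (N + 1))
  have hB : (B : Set ((Fin s → ℕ) × (Fin t → ℕ))).ncard = (a + 1) ^ s * (N + 1) ^ t := by
    rw [Set.ncard_coe_finset]
    simp [B, Fintype.card_piFinset]
  rw [← hB]
  refine Set.ncard_le_ncard_of_injOn g ?_ ?_ (Finset.finite_toSet _)
  · intro lam hl
    obtain ⟨-, h2, -⟩ := hA lam hl
    simp only [B, g, Finset.coe_product, Set.mem_prod, Finset.mem_coe, Fintype.mem_piFinset,
      mem_range]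
    refine ⟨fun x => ?_, fun j => ?_⟩
    · have : nb lam x ≤ (univ : Finset (Fin a)).card := card_le_card (filter_subset _ _)
      rw [card_univ, Fintype.card_fin] at this
      omega
    · split_ifs with h
      · exact Nat.lt_succ_of_le (h2 _)
      · omega
  · intro lam hl lam' hl' hg
    obtain ⟨h1, -, h3⟩ := hA lam hl
    obtain ⟨h1', -, h3'⟩ := hA lam' hl'
    simp only [g, Prod.mk.injEq] at hg
    obtain ⟨hg1, hg2⟩ := hg
    funext i
    by_cases hi : (i : ℕ) < t
    · have := congrFun hg2 ⟨i, hi⟩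
      simpa using this
    · have h4 : lam i ≤ s := by
        by_contra h
        have := (lt_iff h1 s i).1 (not_le.1 h)
        omega
      have h4' : lam' i ≤ s := by
        by_contra h
        have := (lt_iff h1' s i).1 (not_le.1 h)
        omega
      rcases lt_trichotomy (lam i) (lam' i) with h | h | h
      · have h5 := congrFun hg1 ⟨lam i, by omega⟩
        simp only at h5
        have h6 := (lt_iff h1' (lam i) i).1 h
        rw [← h5] at h6
        exact absurd ((lt_iff h1 (lam i) i).2 h6) (lt_irrefl _)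
      · exact h
      · have h5 := congrFun hg1 ⟨lam' i, by omega⟩
        simp only at h5
        have h6 := (lt_iff h1 (lam' i) i).1 h
        rw [h5] at h6
        exact absurd ((lt_iff h1' (lam' i) i).2 h6) (lt_irrefl _)

/-- tail counts of a set -/
def tc {m : ℕ} (S : Finset (Fin m)) (j : ℕ) : ℕ := (S.filter fun k : Fin m => j ≤ (k : ℕ)).card

lemma tc_anti {m : ℕ} (S : Finset (Fin m)) {i j : ℕ} (h : i ≤ j) : tc S j ≤ tc S i := by
  refine card_le_card fun k hk => ?_
  rw [mem_filter] at hk ⊢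
  exact ⟨hk.1, h.trans hk.2⟩

lemma tc_le {m : ℕ} (S : Finset (Fin m)) (j : ℕ) : tc S j ≤ m := by
  have h1 : tc S j ≤ S.card := card_le_card (filter_subset _ _)
  have h2 := card_le_univ S
  rw [Fintype.card_fin] at h2
  omega

lemma mem_iff {m : ℕ} (S : Finset (Fin m)) (k : Fin m) : k ∈ S ↔ tc S ((k : ℕ) + 1) < tc S k := by
  constructor
  · intro hk
    refine card_lt_card ?_
    rw [Finset.ssubset_iff_of_subset]
    · exact ⟨k, mem_filter.2 ⟨hk, le_refl _⟩, fun h => by
        have := (mem_filter.1 h).2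
        omega⟩
    · intro x hx
      rw [mem_filter] at hx ⊢
      exact ⟨hx.1, by omega⟩
  · intro h
    by_contra hk
    have : (S.filter fun x : Fin m => (k : ℕ) ≤ (x : ℕ)) =
        S.filter fun x : Fin m => (k : ℕ) + 1 ≤ (x : ℕ) := by
      ext x
      simp only [mem_filter]
      constructor
      · rintro ⟨h1, h2⟩
        refine ⟨h1, ?_⟩
        rcases Nat.lt_or_ge (k : ℕ) x with h3 | h3
        · exact h3
        · exact absurd (Fin.ext (le_antisymm h2 h3) ▸ h1) hk
      · rintro ⟨h1, h2⟩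
        exact ⟨h1, by omega⟩
    unfold tc at h
    rw [this] at h
    exact lt_irrefl _ h

/-- there are at least `2 ^ (a - 1)` shapes -/
lemma total {m b : ℕ} (hb : m + 1 ≤ b) :
    2 ^ m ≤ {lam : Fin (m + 1) → ℕ | Antitone lam ∧ ∑ i, lam i = (m + 1) * b}.ncard := by
  classical
  let g : Finset (Fin m) → (Fin (m + 1) → ℕ) := fun S =>
    Fin.cons ((m + 1) * b - ∑ j : Fin m, tc S j) fun j : Fin m => tc S j
  have hs : ∀ S : Finset (Fin m), ∑ j : Fin m, tc S j ≤ m * m := by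
    intro S
    calc ∑ j : Fin m, tc S j ≤ ∑ _j : Fin m, m := sum_le_sum fun j _ => tc_le S j
      _ = m * m := by simp
  have hbb : (m + 1) * (m + 1) ≤ (m + 1) * b := Nat.mul_le_mul_left _ hb
  have hcard : ((univ : Finset (Finset (Fin m))) : Set (Finset (Fin m))).ncard = 2 ^ m := by
    rw [Set.ncard_coe_finset, card_univ, Fintype.card_finset, Fintype.card_fin]
  rw [← hcard]
  refine Set.ncard_le_ncard_of_injOn g ?_ ?_ ?_
  · intro S _
    have h1 := hs S
    refine ⟨?_, ?_⟩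
    · intro i j hij
      induction j using Fin.cases with
      | zero =>
        have : i = 0 := Fin.le_zero_iff.1 hij
        rw [this]
      | succ j =>
        induction i using Fin.cases with
        | zero =>
          simp only [g, Fin.cons_zero, Fin.cons_succ]
          have h2 := tc_le S j
          have h3 : (m + 1) * (m + 1) = m * m + 2 * m + 1 := by ring
          omega
        | succ i =>
          simp only [g, Fin.cons_succ]
          exact tc_anti S (by simpa using hij)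
    · simp only [g, Fin.sum_cons]
      have h3 : (m + 1) * (m + 1) = m * m + 2 * m + 1 := by ring
      omega
  · intro S _ S' _ h
    have h1 : ∀ j : Fin m, tc S j = tc S' j := fun j => by
      have := congrFun h j.succ
      simpa only [g, Fin.cons_succ] using this
    have h2 : ∀ j : ℕ, j ≤ m → tc S j = tc S' j := by
      intro j hj
      rcases Nat.lt_or_ge j m with h3 | h3
      · exact h1 ⟨j, h3⟩
      · have h4 : ∀ S : Finset (Fin m), tc S j = 0 := by
          intro S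
          unfold tc
          rw [card_eq_zero, filter_eq_empty_iff]
          intro x _
          have := x.2
          omega
        rw [h4, h4]
    ext k
    rw [mem_iff, mem_iff, h2 _ (by omega), h2 _ (by omega)]
  · refine Set.Finite.subset
      (Finset.finite_toSet (Fintype.piFinset fun _ : Fin (m + 1) => range ((m + 1) * b + 1))) ?_
    rintro lam ⟨-, h⟩
    simp only [Finset.mem_coe, Fintype.mem_piFinset, mem_range]
    intro i
    have := single_le_sum (f := lam) (fun _ _ => Nat.zero_le _) (mem_univ i)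
    omega

lemma num1 {a b L C1 C2 : ℝ} {c1 c2 : ℕ} (ha : 1 ≤ a) (hL : 1 ≤ L) (h1 : 0 < C1) (h2 : 0 < C2)
    (h : a + (12288 * C1 + (6144 * C1 * C2) ^ 2 + 1) * L ^ (2 * (c1 + c2 + 2)) ≤ b)
    (hb : b ≤ a ^ 2) (hp : b < C2 * a * L ^ c2) :
    3072 * C1 * L ^ (c1 + 2) * b ^ 2 ≤ a ^ 2 * (b - a) := by
  have hLc : 1 ≤ L ^ (2 * (c1 + c2 + 2)) := one_le_pow₀ hL
  have hL0 : 0 < L := by linarith
  have hC0 : 0 < 12288 * C1 + (6144 * C1 * C2) ^ 2 + 1 := by positivity
  have hx : (12288 * C1 + (6144 * C1 * C2) ^ 2 + 1) * L ^ (2 * (c1 + c2 + 2)) ≤ b - a := by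
    linarith
  have hab : a ≤ b := by
    have : 0 ≤ (12288 * C1 + (6144 * C1 * C2) ^ 2 + 1) * L ^ (2 * (c1 + c2 + 2)) := by positivity
    linarith
  have ha2 : 0 < a ^ 2 := by positivity
  rcases le_total b (2 * a) with h3 | h3
  · have h4 : b ^ 2 ≤ 4 * a ^ 2 := by nlinarith
    have h5 : L ^ (c1 + 2) ≤ L ^ (2 * (c1 + c2 + 2)) := pow_le_pow_right₀ hL (by omega)
    have h6 : 0 < L ^ (c1 + 2) := by positivity
    have h7 : 12288 * C1 * L ^ (c1 + 2) ≤ b - a := by
      refine le_trans ?_ hx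
      calc 12288 * C1 * L ^ (c1 + 2) ≤ 12288 * C1 * L ^ (2 * (c1 + c2 + 2)) :=
            mul_le_mul_of_nonneg_left h5 (by positivity)
        _ ≤ _ := by
            refine mul_le_mul_of_nonneg_right ?_ (by positivity)
            have : 0 ≤ (6144 * C1 * C2) ^ 2 := by positivity
            linarith
    calc 3072 * C1 * L ^ (c1 + 2) * b ^ 2 ≤ 3072 * C1 * L ^ (c1 + 2) * (4 * a ^ 2) :=
          mul_le_mul_of_nonneg_left h4 (by positivity)
      _ = a ^ 2 * (12288 * C1 * L ^ (c1 + 2)) := by ring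
      _ ≤ a ^ 2 * (b - a) := mul_le_mul_of_nonneg_left h7 ha2.le
  · by_contra hcon
    push Not at hcon
    have hb0 : 0 < b := by linarith
    have h4 : a ^ 2 * (b / 2) ≤ a ^ 2 * (b - a) := mul_le_mul_of_nonneg_left (by linarith) ha2.le
    have h5 : a ^ 2 < 6144 * C1 * L ^ (c1 + 2) * b := by
      by_contra h6
      push Not at h6
      have h7 : 6144 * C1 * L ^ (c1 + 2) * b * b ≤ a ^ 2 * b :=
        mul_le_mul_of_nonneg_right h6 hb0.le
      nlinarith
    have h6 : 6144 * C1 * L ^ (c1 + 2) * b ≤ 6144 * C1 * L ^ (c1 + 2) * (C2 * a * L ^ c2) :=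
      mul_le_mul_of_nonneg_left hp.le (by positivity)
    have h7 : 6144 * C1 * L ^ (c1 + 2) * (C2 * a * L ^ c2) =
        (6144 * C1 * C2 * L ^ (c1 + c2 + 2)) * a := by
      rw [show c1 + c2 + 2 = (c1 + 2) + c2 by ring, pow_add L (c1 + 2) c2]
      ring
    have h8 : a < 6144 * C1 * C2 * L ^ (c1 + c2 + 2) := by
      have h9 : a * a < (6144 * C1 * C2 * L ^ (c1 + c2 + 2)) * a := by
        calc a * a = a ^ 2 := by ring
          _ < _ := h5
          _ ≤ _ := h6
          _ = _ := h7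
      exact lt_of_mul_lt_mul_right h9 (by linarith)
    have h9 : a ^ 2 < (6144 * C1 * C2) ^ 2 * L ^ (2 * (c1 + c2 + 2)) := by
      calc a ^ 2 < (6144 * C1 * C2 * L ^ (c1 + c2 + 2)) ^ 2 :=
            pow_lt_pow_left₀ h8 (by linarith) (by norm_num)
        _ = _ := by rw [mul_pow, ← pow_mul, mul_comm (c1 + c2 + 2) 2]
    have h10 : (6144 * C1 * C2) ^ 2 * L ^ (2 * (c1 + c2 + 2)) ≤ b - a := by
      refine le_trans (mul_le_mul_of_nonneg_right ?_ (by positivity)) hx
      linarith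
    linarith

lemma num2 {a b : ℕ} {L C1 : ℝ} {c1 : ℕ} (ha : 2 ≤ a) (hL : L = 1 + Real.log a) (h1 : 0 < C1)
    (hab : (a : ℝ) < b) (hb : b ≤ a ^ 2)
    (h : 3072 * C1 * L ^ (c1 + 2) * (b : ℝ) ^ 2 ≤ (a : ℝ) ^ 2 * ((b : ℝ) - a)) :
    (((a + 1) ^ ⌊(a : ℝ) / (32 * L)⌋₊ * (a * b + 1) ^
      ⌊32 * C1 * L ^ (c1 + 1) * (b : ℝ) ^ 2 / (a * ((b : ℝ) - a))⌋₊ : ℕ) : ℝ) ≤
      Real.exp (-(a : ℝ) / 4) * 2 ^ (a - 1) := by
  have haR : (2 : ℝ) ≤ a := by exact_mod_cast ha
  have ha0 : (0 : ℝ) < a := by linarith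
  have hlog : 0 ≤ Real.log a := Real.log_nonneg (by linarith)
  have hL1 : 1 ≤ L := by rw [hL]; linarith
  have hL0 : 0 < L := by linarith
  have he : (2 : ℝ) ≤ Real.exp 1 := by
    have := Real.add_one_le_exp (1 : ℝ)
    linarith
  have hexpL : Real.exp L = Real.exp 1 * a := by
    rw [hL, Real.exp_add, Real.exp_log ha0]
  have h2 : ((a : ℝ) + 1) ≤ Real.exp L := by
    rw [hexpL]
    nlinarith
  have hbR : (b : ℝ) ≤ (a : ℝ) ^ 2 := by exact_mod_cast hb
  have h3 : ((a : ℝ) * b + 1) ≤ Real.exp (3 * L) := by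
    have h4 : Real.exp (3 * L) = Real.exp L ^ 3 := by
      rw [← Real.exp_nat_mul]
      norm_num
    rw [h4, hexpL]
    have h5 : (2 * (a : ℝ)) ^ 3 ≤ (Real.exp 1 * a) ^ 3 :=
      pow_le_pow_left₀ (by positivity) (mul_le_mul_of_nonneg_right he ha0.le) 3
    have h6 : (a : ℝ) * b ≤ a * (a : ℝ) ^ 2 := mul_le_mul_of_nonneg_left hbR ha0.le
    have h7 : (1 : ℝ) ≤ (a : ℝ) ^ 3 := one_le_pow₀ (by linarith)
    nlinarith
  obtain ⟨s, hs⟩ : ∃ s : ℕ, s = ⌊(a : ℝ) / (32 * L)⌋₊ := ⟨_, rfl⟩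
  obtain ⟨T, hT⟩ : ∃ T : ℝ, T = 32 * C1 * L ^ (c1 + 1) * (b : ℝ) ^ 2 / (a * ((b : ℝ) - a)) :=
    ⟨_, rfl⟩
  obtain ⟨t, ht⟩ : ∃ t : ℕ, t = ⌊T⌋₊ := ⟨_, rfl⟩
  rw [← hs, ← hT, ← ht]
  have hba : 0 < (b : ℝ) - a := by linarith
  have hT0 : 0 ≤ T := by rw [hT]; positivity
  have hs1 : (s : ℝ) * L ≤ a / 32 := by
    have h4 : (s : ℝ) ≤ a / (32 * L) := by
      rw [hs]
      exact Nat.floor_le (by positivity)
    calc (s : ℝ) * L ≤ a / (32 * L) * L := mul_le_mul_of_nonneg_right h4 hL0.le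
      _ = a / 32 := by field_simp
  have ht1 : (t : ℝ) * (3 * L) ≤ a / 32 := by
    have h4 : (t : ℝ) ≤ T := by
      rw [ht]
      exact Nat.floor_le hT0
    have h5 : T * (3 * L) ≤ a / 32 := by
      rw [hT, div_mul_eq_mul_div, div_le_div_iff₀ (by positivity) (by norm_num)]
      have h6 : 32 * C1 * L ^ (c1 + 1) * (b : ℝ) ^ 2 * (3 * L) * 32 =
          3072 * C1 * L ^ (c1 + 2) * (b : ℝ) ^ 2 := by
        rw [pow_succ L (c1 + 1)]
        ring
      rw [h6]
      calc _ ≤ _ := h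
        _ = _ := by ring
    exact (mul_le_mul_of_nonneg_right h4 (by positivity)).trans h5
  have h4 : ((a : ℝ) + 1) ^ s ≤ Real.exp (a / 32) := by
    calc ((a : ℝ) + 1) ^ s ≤ Real.exp L ^ s := pow_le_pow_left₀ (by positivity) h2 s
      _ = Real.exp (s * L) := (Real.exp_nat_mul L s).symm
      _ ≤ _ := Real.exp_le_exp.2 hs1
  have h5 : ((a : ℝ) * b + 1) ^ t ≤ Real.exp (a / 32) := by
    calc ((a : ℝ) * b + 1) ^ t ≤ Real.exp (3 * L) ^ t := pow_le_pow_left₀ (by positivity) h3 t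
      _ = Real.exp (t * (3 * L)) := (Real.exp_nat_mul (3 * L) t).symm
      _ ≤ _ := Real.exp_le_exp.2 ht1
  have h6 : Real.exp (5 * (a : ℝ) / 16) ≤ 2 ^ (a - 1) := by
    have h7 : (2 : ℝ) ^ (a - 1) = Real.exp (((a - 1 : ℕ) : ℝ) * Real.log 2) := by
      rw [Real.exp_nat_mul, Real.exp_log (by norm_num)]
    rw [h7]
    refine Real.exp_le_exp.2 ?_
    have h8 : (0.6931471803 : ℝ) < Real.log 2 := Real.log_two_gt_d9
    have h9 : ((a - 1 : ℕ) : ℝ) = (a : ℝ) - 1 := by
      rw [Nat.cast_sub (by omega)]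
      simp
    rw [h9]
    nlinarith
  push_cast
  calc ((a : ℝ) + 1) ^ s * ((a : ℝ) * b + 1) ^ t ≤ Real.exp (a / 32) * Real.exp (a / 32) :=
        mul_le_mul h4 h5 (by positivity) (Real.exp_pos _).le
    _ = Real.exp (-(a : ℝ) / 4) * Real.exp (5 * (a : ℝ) / 16) := by
        rw [← Real.exp_add, ← Real.exp_add]
        congr 1
        ring
    _ ≤ _ := mul_le_mul_of_nonneg_left h6 (Real.exp_pos _).le

lemma total' {a b : ℕ} (ha : 1 ≤ a) (hab : a ≤ b) :
    2 ^ (a - 1) ≤ {lam : Fin a → ℕ | Antitone lam ∧ ∑ i, lam i = a * b}.ncard := by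
  obtain ⟨m, rfl⟩ : ∃ m, a = m + 1 := ⟨a - 1, by omega⟩
  rw [Nat.add_sub_cancel]
  exact total hab

/-- **All but an exponentially small proportion of the shapes.** `hP` is `PolyS`. -/
theorem most_of (hF : FatLog)
    (hP : ∃ (C : ℝ) (c : ℕ), 0 < C ∧ ∀ a b : ℕ, C * a * (1 + Real.log a) ^ c ≤ b →
      ∀ (n : ℕ) (lam : Fin n → ℕ), plethMult a b n lam ≤ plethMult b a n lam)
    (hB : T4.BigStmt) : MostAll := by
  obtain ⟨C1, c1, h1, hF⟩ := hF
  obtain ⟨C2, c2, h2, hP⟩ := hP
  refine ⟨12288 * C1 + (6144 * C1 * C2) ^ 2 + 1, 2 * (c1 + c2 + 2), by positivity, ?_⟩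
  intro a b hab
  have hempty : (∀ lam : Fin a → ℕ, plethMult a b a lam ≤ plethMult b a a lam) →
      ({lam : Fin a → ℕ | Antitone lam ∧ ∑ i, lam i = a * b ∧
        ¬ plethMult a b a lam ≤ plethMult b a a lam}.ncard : ℝ) ≤
      Real.exp (-(a : ℝ) / 4) *
        ({lam : Fin a → ℕ | Antitone lam ∧ ∑ i, lam i = a * b}.ncard : ℝ) := by
    intro h
    have h3 : {lam : Fin a → ℕ | Antitone lam ∧ ∑ i, lam i = a * b ∧
        ¬ plethMult a b a lam ≤ plethMult b a a lam} = ∅ := by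
      ext lam
      constructor
      · rintro ⟨-, -, h4⟩
        exact absurd (h lam) h4
      · intro h4
        exact absurd h4 (Set.notMem_empty _)
    rw [h3, Set.ncard_empty, Nat.cast_zero]
    positivity
  by_cases hbig : (a - 1) ^ 2 ≤ b
  · exact hempty fun lam => hB a b a lam hbig
  by_cases hpoly : C2 * a * (1 + Real.log a) ^ c2 ≤ b
  · exact hempty fun lam => hP a b hpoly a lam
  have hbig' := not_le.1 hbig
  have hpoly' := not_le.1 hpoly
  have ha1 : 1 ≤ a := by
    rcases Nat.eq_zero_or_pos a with h | h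
    · subst h
      simp at hbig
    · exact h
  have ha1R : (1 : ℝ) ≤ a := by exact_mod_cast ha1
  have hlog : 0 ≤ Real.log a := Real.log_nonneg ha1R
  obtain ⟨L, hL⟩ : ∃ L : ℝ, L = 1 + Real.log a := ⟨_, rfl⟩
  rw [← hL] at hab hpoly'
  have hL1 : 1 ≤ L := by rw [hL]; linarith
  have hL0 : 0 < L := by linarith
  have hLc : 1 ≤ L ^ (2 * (c1 + c2 + 2)) := one_le_pow₀ hL1
  have hC1 : 1 ≤ 12288 * C1 + (6144 * C1 * C2) ^ 2 + 1 := by
    have : 0 ≤ (6144 * C1 * C2) ^ 2 := by positivity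
    linarith
  have hCL : 1 ≤ (12288 * C1 + (6144 * C1 * C2) ^ 2 + 1) * L ^ (2 * (c1 + c2 + 2)) :=
    one_le_mul_of_one_le_of_one_le hC1 hLc
  have habR : (a : ℝ) < b := by linarith
  have habN : a < b := by exact_mod_cast habR
  have ha2 : 2 ≤ a := by
    rcases Nat.lt_or_ge a 2 with h | h
    · have : a = 1 := by omega
      subst this
      simp at hbig
    · exact h
  have hba2 : b ≤ a ^ 2 := hbig'.le.trans (Nat.pow_le_pow_left (Nat.sub_le a 1) 2)
  have hba2R : (b : ℝ) ≤ (a : ℝ) ^ 2 := by exact_mod_cast hba2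
  have hn1 := num1 ha1R hL1 h1 h2 hab hba2R hpoly'
  have hn2 := num2 ha2 hL h1 habR hba2 hn1
  have ha0 : (0 : ℝ) < a := by linarith
  have hba0 : (0 : ℝ) < (b : ℝ) - a := by linarith
  have hcount := count (a := a) (a * b) ⌊(a : ℝ) / (32 * L)⌋₊
    ⌊32 * C1 * L ^ (c1 + 1) * (b : ℝ) ^ 2 / (a * ((b : ℝ) - a))⌋₊
    {lam : Fin a → ℕ | Antitone lam ∧ ∑ i, lam i = a * b ∧
      ¬ plethMult a b a lam ≤ plethMult b a a lam} (by
    rintro lam ⟨hanti, hsum, hnot⟩
    refine ⟨hanti, fun i => ?_, ?_⟩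
    · have := single_le_sum (f := lam) (fun _ _ => Nat.zero_le _) (mem_univ i)
      omega
    · have hlt : ((b : ℝ) - a) * ∑ i, ((min b (lam i) : ℕ) : ℝ) < C1 * L ^ c1 * (b : ℝ) ^ 2 := by
        by_contra h
        refine hnot (hF a b a lam habN.le ?_)
        rw [← hL]
        exact not_lt.1 h
      obtain ⟨s, hs⟩ : ∃ s : ℕ, s = ⌊(a : ℝ) / (32 * L)⌋₊ := ⟨_, rfl⟩
      rw [← hs]
      have hs1 : (a : ℝ) / (32 * L) < s + 1 := by
        rw [hs]
        exact Nat.lt_floor_add_one _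
      have hs2 : (s : ℝ) ≤ a / (32 * L) := by
        rw [hs]
        exact Nat.floor_le (by positivity)
      have hsb : s + 1 ≤ b := by
        have h3 : (a : ℝ) / (32 * L) ≤ a := div_le_self ha0.le (by linarith)
        have h4 : (s : ℝ) < b := by linarith
        have h5 : s < b := by exact_mod_cast h4
        omega
      have hsumN : nb lam s * (s + 1) ≤ ∑ i, min b (lam i) := by
        calc nb lam s * (s + 1) = ∑ _i ∈ univ.filter (fun i => s < lam i), (s + 1) := by
              rw [sum_const, smul_eq_mul]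
              rfl
          _ ≤ ∑ i ∈ univ.filter (fun i => s < lam i), min b (lam i) := by
              refine sum_le_sum fun i hi => le_min hsb ?_
              exact (mem_filter.1 hi).2
          _ ≤ ∑ i, min b (lam i) :=
              sum_le_sum_of_subset (filter_subset _ _)
      have hsumR : (nb lam s : ℝ) * (s + 1) ≤ ∑ i, ((min b (lam i) : ℕ) : ℝ) := by
        exact_mod_cast hsumN
      refine Nat.le_floor ?_
      rw [le_div_iff₀ (by positivity)]
      have h5 : (a : ℝ) ≤ 32 * L * (s + 1) := by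
        have h6 := hs1.le
        rw [div_le_iff₀ (by positivity)] at h6
        linarith
      have hnb0 : (0 : ℝ) ≤ nb lam s := Nat.cast_nonneg _
      calc (nb lam s : ℝ) * (a * ((b : ℝ) - a)) ≤
            (nb lam s : ℝ) * ((32 * L * (s + 1)) * ((b : ℝ) - a)) :=
              mul_le_mul_of_nonneg_left (mul_le_mul_of_nonneg_right h5 hba0.le) hnb0
        _ = 32 * L * (((b : ℝ) - a) * ((nb lam s : ℝ) * (s + 1))) := by ring
        _ ≤ 32 * L * (((b : ℝ) - a) * ∑ i, ((min b (lam i) : ℕ) : ℝ)) :=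
              mul_le_mul_of_nonneg_left (mul_le_mul_of_nonneg_left hsumR hba0.le) (by positivity)
        _ ≤ 32 * L * (C1 * L ^ c1 * (b : ℝ) ^ 2) :=
              mul_le_mul_of_nonneg_left hlt.le (by positivity)
        _ = 32 * C1 * L ^ (c1 + 1) * (b : ℝ) ^ 2 := by
              rw [pow_succ L c1]
              ring)
  have htot := total' ha1 habN.le
  have htotR : (2 : ℝ) ^ (a - 1) ≤
      ({lam : Fin a → ℕ | Antitone lam ∧ ∑ i, lam i = a * b}.ncard : ℝ) := by
    exact_mod_cast htot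
  calc _ ≤ _ := Nat.cast_le.2 hcount
    _ ≤ _ := hn2
    _ ≤ _ := mul_le_mul_of_nonneg_left htotR (Real.exp_pos _).le

end H422

end Vale.Agent.P181.FD
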