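import Vale.Agent.P181.FD.H422.All
import Vale.Agent.P181.FD.H422.Most
import Vale.Agent.P181.PLX.Main

/-!
# P181, FD: all but an exponentially small proportion of the shapes, closed form
-/

set_option autoImplicit false

namespace Vale.Agent.P181.FD

theorem mostAll : MostAll :=
  H422.most_of fatLog PLX.polyS Vale.Agent.P181.H463.big_stmt

end Vale.Agent.P181.FD
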